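import Mathlib.Algebra.Group.MinimalAxioms
import Mathlib.Algebra.GroupWithZero.Action.Pointwise.Finset
import Mathlib.Algebra.MvPolynomial.Comap
import Mathlib.Algebra.MvPolynomial.Funext
import Mathlib.Algebra.Order.Ring.Star
import Mathlib.Algebra.Polynomial.Smeval
import Mathlib.Algebra.Ring.Action.Pointwise.Finset
import Mathlib.Analysis.CStarAlgebra.Matrix
import Mathlib.Analysis.CStarAlgebra.Unitary.Connected
import Mathlib.Analysis.Calculus.Deriv.Star
import Mathlib.Analysis.Calculus.ParametricIntegral
import Mathlib.Control.Monad.Cont
import Mathlib.Dynamics.Flow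
import Mathlib.FieldTheory.Finite.Polynomial
import Mathlib.GroupTheory.Coprod.Basic
import Mathlib.GroupTheory.FreeGroup.Reduce
import Mathlib.LinearAlgebra.Eigenspace.Minpoly
import Mathlib.LinearAlgebra.Lagrange
import Mathlib.LinearAlgebra.Matrix.Rank
import Mathlib.MeasureTheory.Group.Integral
import Mathlib.Order.CompletePartialOrder
import Mathlib.RingTheory.Derivation.Lie
import Mathlib.RingTheory.Etale.Weakly
import Mathlib.RingTheory.Flat.TorsionFree
import Mathlib.RingTheory.Henselian
import Mathlib.RingTheory.MvPolynomial.IrreducibleQuadratic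
import Mathlib.RingTheory.RegularLocalRing.Defs
import Mathlib.RingTheory.SimpleRing.Principal
import Mathlib.RingTheory.TotallySplit
import Mathlib.Tactic
import Mathlib.Topology.Algebra.MvPolynomial
import Mathlib.Topology.Algebra.Star.Unitary

/-! The part of Mathlib that the development of this folder uses. -/
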